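import Vale.Agent.P038.H484.Pair

/-!
# The inequality (G) for an arc-minimal counterexample, and Seymour's conjecture
-/

namespace Vale.Agent.P038.H484

open Finset

variable {V : Type*} [Fintype V] [DecidableEq V]

/-- A counterexample. -/
def CE (D : OGraph V) : Prop := ∀ v, (N2 D v).card < (N1 D v).card

/-- Delete the arcs from `X` to the complement of `X ∪ T`. -/
def del (D : OGraph V) (X T : Finset V) : OGraph V where
  arc a b := D.arc a b ∧ (a ∈ X → b ∈ X ∨ b ∈ T)
  loopless v h := D.loopless v h.1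
  asymm _ _ h h' := D.asymm _ _ h.1 h'.1

theorem mem_cl' {D : OGraph V} {S : Finset V} {z : V} :
    z ∈ cl D S ↔ z ∈ S ∨ ∃ a ∈ S, D.arc a z := by
  rw [mem_cl]
  constructor
  · rintro ⟨a, ha, rfl | h⟩
    · exact Or.inl ha
    · exact Or.inr ⟨a, ha, h⟩
  · rintro (h | ⟨a, ha, h⟩)
    · exact ⟨z, h, Or.inl rfl⟩
    · exact ⟨a, ha, Or.inr h⟩

/-- The inequality (G). -/
theorem ineqG {D : OGraph V} (hce : CE D)
    (hmin : ∀ D' : OGraph V, (∀ u v, D'.arc u v → D.arc u v) → CE D' → ∀ u v, D.arc u v →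
      D'.arc u v) (X : Finset V) (hX : cl D X ≠ X) : cc D (cl D X) < cc D X := by
  classical
  by_contra hcon
  push Not at hcon
  set L := cl D X \ X with hL
  set d : Finset V → ℤ := fun T => ((cl D T \ X).card : ℤ) - 2 * T.card with hd
  have hclX : cl D X = X ∪ L := by
    rw [hL, Finset.union_sdiff_of_subset (subset_cl D X)]
  have hLX : Disjoint X L := Finset.disjoint_sdiff
  have hLne : L.Nonempty := by
    rw [Finset.nonempty_iff_ne_empty]
    intro h
    rw [h, Finset.union_empty] at hclX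
    exact hX hclX
  have hdL : 0 ≤ d L := by
    have e1 : cl D (cl D X) = X ∪ (cl D L \ X) := by
      rw [hclX, cl_union, hclX]
      ext z
      simp only [Finset.mem_union, Finset.mem_sdiff]
      have : z ∈ L → z ∈ cl D L := fun h => subset_cl D L h
      tauto
    have e2 : (cl D (cl D X)).card = X.card + (cl D L \ X).card := by
      rw [e1]
      exact Finset.card_union_of_disjoint Finset.disjoint_sdiff
    have e3 : (cl D X).card = X.card + L.card := by
      rw [hclX]
      exact Finset.card_union_of_disjoint hLX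
    unfold cc at hcon
    rw [e2, e3] at hcon
    push_cast at hcon
    simp only [hd]
    linarith
  have hd0 : d ∅ = 0 := by
    have : cl D (∅ : Finset V) = ∅ := by
      rw [Finset.eq_empty_iff_forall_notMem]
      intro z hz
      obtain ⟨a, ha, -⟩ := mem_cl.1 hz
      simp at ha
    simp [hd, this]
  -- minimiser among the proper subsets
  obtain ⟨T, hT, hTmin⟩ := Finset.exists_min_image L.ssubsets d
    ⟨∅, Finset.mem_ssubsets.2 (Finset.empty_ssubset.2 hLne)⟩
  rw [Finset.mem_ssubsets] at hT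
  have hTX : ∀ z ∈ T, z ∉ X := fun z hz h => Finset.disjoint_left.1 hLX h (hT.1 hz)
  have h1 : ∀ S ⊆ L \ T, 2 * (S.card : ℤ) ≤ ((cl D S \ (cl D T ∪ X)).card : ℤ) := by
    intro S hS
    have h2 : d T ≤ d (T ∪ S) := by
      by_cases h3 : T ∪ S = L
      · rw [h3]
        have := hTmin ∅ (Finset.mem_ssubsets.2 (Finset.empty_ssubset.2 hLne))
        rw [hd0] at this
        linarith
      · apply hTmin
        rw [Finset.mem_ssubsets]
        exact lt_of_le_of_ne (Finset.union_subset hT.1 (hS.trans Finset.sdiff_subset)) h3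
    have e1 : cl D (T ∪ S) \ X = (cl D T \ X) ∪ (cl D S \ (cl D T ∪ X)) := by
      rw [cl_union]
      ext z
      simp only [Finset.mem_union, Finset.mem_sdiff]
      tauto
    have e2 : (cl D (T ∪ S) \ X).card = (cl D T \ X).card + (cl D S \ (cl D T ∪ X)).card := by
      rw [e1]
      apply Finset.card_union_of_disjoint
      rw [Finset.disjoint_left]
      intro z hz hz'
      exact (Finset.mem_sdiff.1 hz').2 (Finset.mem_union_left _ (Finset.mem_sdiff.1 hz).1)
    have e3 : (T ∪ S).card = T.card + S.card := by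
      apply Finset.card_union_of_disjoint
      rw [Finset.disjoint_left]
      intro z hz hz'
      exact (Finset.mem_sdiff.1 (hS hz')).2 hz
    simp only [hd] at h2
    rw [e2, e3] at h2
    push_cast at h2
    linarith
  -- the graph with arcs deleted
  set D' := del D X T with hD'
  have hce' : CE D' := by
    intro y
    by_cases hy : y ∈ X
    · -- y ∈ X
      set Dy := N1 D y \ (X ∪ T) with hDy
      set Ey := cl D Dy \ (cl D T ∪ X) with hEy
      have hDyL : Dy ⊆ L \ T := by
        intro z hz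
        obtain ⟨hz1, hz2⟩ := Finset.mem_sdiff.1 hz
        rw [Finset.mem_union, not_or] at hz2
        refine Finset.mem_sdiff.2 ⟨?_, hz2.2⟩
        rw [hL]
        exact Finset.mem_sdiff.2 ⟨mem_cl'.2 (Or.inr ⟨y, hy, mem_N1.1 hz1⟩), hz2.1⟩
      have hE := h1 Dy hDyL
      have hN1 : N1 D' y = N1 D y \ Dy := by
        ext z
        rw [mem_N1, Finset.mem_sdiff, hDy, Finset.mem_sdiff, mem_N1, Finset.mem_union]
        constructor
        · rintro ⟨h2, h3⟩
          exact ⟨h2, fun h4 => h4.2 (h3 hy)⟩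
        · rintro ⟨h2, h3⟩
          refine ⟨h2, fun _ => ?_⟩
          by_contra h4
          exact h3 ⟨h2, h4⟩
      have hEsub : Ey ⊆ N2 D y ∪ Dy := by
        intro z hz
        obtain ⟨hz1, hz2⟩ := Finset.mem_sdiff.1 hz
        have hzX : z ∉ X := fun h3 => hz2 (Finset.mem_union_right _ h3)
        have hzT : z ∉ T := fun h3 => hz2 (Finset.mem_union_left _ (subset_cl D T h3))
        rcases mem_cl'.1 hz1 with h2 | ⟨c, hc, hcz⟩
        · exact Finset.mem_union_right _ h2
        · have hyc : D.arc y c := mem_N1.1 (Finset.mem_sdiff.1 hc).1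
          by_cases hyz : D.arc y z
          · refine Finset.mem_union_right _ (Finset.mem_sdiff.2 ⟨mem_N1.2 hyz, ?_⟩)
            intro h4
            exact (Finset.mem_union.1 h4).elim hzX hzT
          · refine Finset.mem_union_left _ (mem_N2.2 ⟨?_, hyz, c, hyc, hcz⟩)
            rintro rfl
            exact hzX hy
      have hN2 : N2 D' y ⊆ (N2 D y ∪ Dy) \ Ey := by
        intro z hz
        obtain ⟨hzy, hz1, c, ⟨hyc, hc⟩, hcz⟩ := mem_N2.1 hz
        have hcXT := hc hy
        refine Finset.mem_sdiff.2 ⟨?_, ?_⟩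
        · by_cases hyz : D.arc y z
          · refine Finset.mem_union_right _ (Finset.mem_sdiff.2 ⟨mem_N1.2 hyz, ?_⟩)
            intro h4
            exact hz1 ⟨hyz, fun _ => Finset.mem_union.1 h4⟩
          · exact Finset.mem_union_left _ (mem_N2.2 ⟨hzy, hyz, c, hyc, hcz.1⟩)
        · intro h4
          obtain ⟨-, h5⟩ := Finset.mem_sdiff.1 h4
          rw [Finset.mem_union, not_or] at h5
          rcases hcXT with h6 | h6
          · rcases hcz.2 h6 with h7 | h7
            · exact h5.2 h7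
            · exact h5.1 (subset_cl D T h7)
          · exact h5.1 (mem_cl'.2 (Or.inr ⟨c, h6, hcz.1⟩))
      have hDy1 : Dy ⊆ N1 D y := Finset.sdiff_subset
      have c1 : (N1 D' y).card + Dy.card = (N1 D y).card := by
        rw [hN1]
        exact Finset.card_sdiff_add_card_eq_card hDy1
      have c2 : (N2 D' y).card + Ey.card ≤ (N2 D y).card + Dy.card := by
        have h2 := Finset.card_le_card hN2
        have h3 := Finset.card_sdiff_add_card_eq_card hEsub
        have h4 := Finset.card_union_le (N2 D y) Dy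
        omega
      have h2 := hce y
      have hE' : 2 * Dy.card ≤ Ey.card := by exact_mod_cast hE
      omega
    · have hN1 : N1 D' y = N1 D y := by
        ext z
        rw [mem_N1, mem_N1]
        exact ⟨fun h => h.1, fun h => ⟨h, fun h' => absurd h' hy⟩⟩
      have hN2 : N2 D' y ⊆ N2 D y := by
        intro z hz
        obtain ⟨hzy, hz1, c, hyc, hcz⟩ := mem_N2.1 hz
        exact mem_N2.2 ⟨hzy, fun h => hz1 ⟨h, fun h' => absurd h' hy⟩, c, hyc.1, hcz.1⟩
      rw [hN1]
      exact lt_of_le_of_lt (Finset.card_le_card hN2) (hce y)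
  -- contradiction with minimality
  obtain ⟨z, hzL, hzT⟩ := Finset.exists_of_ssubset hT
  rw [hL] at hzL
  obtain ⟨hz1, hz2⟩ := Finset.mem_sdiff.1 hzL
  rcases mem_cl'.1 hz1 with h2 | ⟨y, hy, hyz⟩
  · exact hz2 h2
  · have h3 := hmin D' (fun u v h => h.1) hce' y z hyz
    rcases h3.2 hy with h4 | h4
    · exact hz2 h4
    · exact hzT h4

/-- Seymour's second neighbourhood conjecture. -/
theorem seymour [Nonempty V] (D₀ : OGraph V) : ∃ v, (N1 D₀ v).card ≤ (N2 D₀ v).card := by
  classical
  by_contra hcon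
  push Not at hcon
  -- an arc-minimal counterexample
  obtain ⟨D, hce, hmin⟩ : ∃ D : OGraph V, CE D ∧ ∀ D' : OGraph V,
      (∀ u v, D'.arc u v → D.arc u v) → CE D' → ∀ u v, D.arc u v → D'.arc u v := by
    let m : OGraph V → ℕ := fun D => (univ.filter fun p : V × V => D.arc p.1 p.2).card
    have hex : ∃ n, ∃ D : OGraph V, CE D ∧ m D = n := ⟨_, D₀, hcon, rfl⟩
    obtain ⟨D, hD, hDm⟩ := Nat.find_spec hex
    refine ⟨D, hD, fun D' hsub hD' => ?_⟩
    have h1 : m D ≤ m D' := by
      rw [hDm]
      exact Nat.find_min' hex ⟨D', hD', rfl⟩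
    have h2 : (univ.filter fun p : V × V => D'.arc p.1 p.2)
        ⊆ univ.filter fun p : V × V => D.arc p.1 p.2 := by
      intro p hp
      exact Finset.mem_filter.2 ⟨Finset.mem_univ _, hsub _ _ (Finset.mem_filter.1 hp).2⟩
    have h3 := Finset.eq_of_subset_of_card_le h2 h1
    intro u v huv
    have h4 : (u, v) ∈ univ.filter fun p : V × V => D.arc p.1 p.2 :=
      Finset.mem_filter.2 ⟨Finset.mem_univ _, huv⟩
    rw [← h3] at h4
    exact (Finset.mem_filter.1 h4).2
  have hG : ∀ S : Finset V, cc D (cl D S) ≤ cc D S := by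
    intro S
    by_cases h : cl D S = S
    · rw [h]
    · exact (ineqG hce hmin S h).le
  obtain ⟨B, C, hop, hopt⟩ := exists_opt D
  have h1 := cost_ero hop hopt
  have h2 := hopt _ _ hop.next
  unfold cost at h2
  have h3 : ∀ z ∈ (univ : Finset V), cc D (cl D (ero (rr D) B z)) ≤ cc D (ero (rr D) B z) :=
    fun z _ => hG _
  have h3' : ∀ z ∈ (univ : Finset V), cc D (cl D (ero (rr D) C z)) ≤ cc D (ero (rr D) C z) :=
    fun z _ => hG _
  have h4 := Finset.sum_le_sum h3
  have h4' := Finset.sum_le_sum h3'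
  have h1' : ∑ z, cc D (ero (rr D) B z) + ∑ z, cc D (ero (rr D) C z)
      ≤ ∑ a, cc D (B a) + ∑ a, cc D (C a) := h1
  have h2' : ∑ a, cc D (B a) + ∑ a, cc D (C a) ≤ ∑ z, cc D (cl D (ero (rr D) B z))
      + ∑ z, cc D (cl D (ero (rr D) C z)) := h2
  have h5 : ∑ z, cc D (cl D (ero (rr D) B z)) = ∑ z, cc D (ero (rr D) B z) := by linarith
  have h5' : ∑ z, cc D (cl D (ero (rr D) C z)) = ∑ z, cc D (ero (rr D) C z) := by linarith
  have hX : ∀ z, cl D (ero (rr D) B z) = ero (rr D) B z := by
    intro z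
    by_contra h
    have h6 := (Finset.sum_eq_sum_iff_of_le h3).1 h5 z (Finset.mem_univ z)
    exact absurd h6 (ineqG hce hmin _ h).ne
  have hY : ∀ z, cl D (ero (rr D) C z) = ero (rr D) C z := by
    intro z
    by_contra h
    have h6 := (Finset.sum_eq_sum_iff_of_le h3').1 h5' z (Finset.mem_univ z)
    exact absurd h6 (ineqG hce hmin _ h).ne
  -- a minimal nonempty closed set
  obtain ⟨S, hS, hSmin⟩ := Finset.exists_min_image
    (univ.filter fun S : Finset V => S.Nonempty ∧ ∀ a ∈ S, ∀ z, D.arc a z → z ∈ S) Finset.card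
    ⟨univ, Finset.mem_filter.2 ⟨Finset.mem_univ _, Finset.univ_nonempty, by simp⟩⟩
  obtain ⟨-, hSne, hScl⟩ := Finset.mem_filter.1 hS
  have hsubset : ∀ Q : V → Finset V, (∀ a z, rr D a z → z ∈ Q a) →
      (∀ z, cl D (ero (rr D) Q z) = ero (rr D) Q z) → ∀ z ∈ S, S ⊆ ero (rr D) Q z := by
    intro Q hQ hcl z hz
    have h6 : S ∩ ero (rr D) Q z ∈ univ.filter fun S : Finset V =>
        S.Nonempty ∧ ∀ a ∈ S, ∀ z, D.arc a z → z ∈ S := by
      refine Finset.mem_filter.2 ⟨Finset.mem_univ _, ⟨z, Finset.mem_inter.2 ⟨hz, ?_⟩⟩, ?_⟩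
      · exact mem_ero.2 fun a ha => hQ a z ha
      · intro a ha y hay
        obtain ⟨ha1, ha2⟩ := Finset.mem_inter.1 ha
        refine Finset.mem_inter.2 ⟨hScl a ha1 y hay, ?_⟩
        rw [← hcl z]
        exact mem_cl'.2 (Or.inr ⟨a, ha2, hay⟩)
    have h7 := hSmin _ h6
    have h8 := Finset.eq_of_subset_of_card_le Finset.inter_subset_left h7
    rw [← h8]
    exact Finset.inter_subset_right
  obtain ⟨z, hz⟩ := hSne
  have hzpos : 0 < (N1 D z).card := lt_of_le_of_lt (Nat.zero_le _) (hce z)
  obtain ⟨y, hy⟩ := Finset.card_pos.1 hzpos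
  rw [mem_N1] at hy
  have hyS := hScl z hz y hy
  have h6 : y ∈ ero (rr D) B z := hsubset B hop.b hX z hz hyS
  have h7 : z ∈ ero (rr D) C y := hsubset C hop.c hY y hyS hz
  have h8 : y ∈ B z := mem_ero.1 h6 z (rr_refl D z)
  have h9 : z ∈ C y := mem_ero.1 h7 y (rr_refl D y)
  have h10 := hop.o z y h8 h9
  subst h10
  exact D.loopless z hy

end Vale.Agent.P038.H484
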