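import Mathlib

/-!
# A monotone nonnegative allocation of a submodular function

`c` is submodular on the subsets of a finite set `V`; `L a ⊆ U a` (`a ∈ V`) are intervals such that
`L a` minimises `c` on `[L a, U a]`; `r` is a relation on `V`; `ero r L z` is the intersection of
the `L a` with `r a z`. Under Hall's condition in the columns,
`∑ (c (U a) - c (L a)) ≤ ∑ (c (ero r U z) - c (ero r L z))`.
-/

namespace Vale.Agent.P038.H484

open Finset

variable {V : Type*} [Fintype V] [DecidableEq V]

/-- The minimum of `c` on the interval `[A, B]`. -/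
noncomputable def mn (c : Finset V → ℤ) (A B : Finset V) : ℤ :=
  ⨅ R : {R : Finset V // A ⊆ R ∧ R ⊆ B}, c R.1

theorem mn_le {c : Finset V → ℤ} {A B R : Finset V} (h1 : A ⊆ R) (h2 : R ⊆ B) :
    mn c A B ≤ c R :=
  ciInf_le (f := fun R : {R : Finset V // A ⊆ R ∧ R ⊆ B} => c R.1)
    (Set.finite_range _).bddBelow ⟨R, h1, h2⟩

theorem exists_mn (c : Finset V → ℤ) {A B : Finset V} (h : A ⊆ B) :
    ∃ R, A ⊆ R ∧ R ⊆ B ∧ c R = mn c A B := by
  haveI : Nonempty {R : Finset V // A ⊆ R ∧ R ⊆ B} := ⟨⟨A, Subset.refl _, h⟩⟩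
  obtain ⟨R, hR⟩ := exists_eq_ciInf_of_finite
    (f := fun R : {R : Finset V // A ⊆ R ∧ R ⊆ B} => c R.1)
  exact ⟨R.1, R.2.1, R.2.2, hR⟩

open Classical in
/-- The erosion of the index: `x ∈ ero r L z` iff `x ∈ L a` for all `a` with `r a z`. -/
noncomputable def ero (r : V → V → Prop) (L : V → Finset V) (z : V) : Finset V :=
  univ.filter fun x => ∀ a, r a z → x ∈ L a

theorem mem_ero {r : V → V → Prop} {L : V → Finset V} {z x : V} :
    x ∈ ero r L z ↔ ∀ a, r a z → x ∈ L a := by
  classical
  simp [ero]

/-- A one-step sum comparison, from Hall's theorem. -/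
theorem hall_sum {P : V → Prop} {q : V → V → Prop} (e e' : V → ℤ)
    (he : ∀ a, ¬ P a → e a = 0) (he' : ∀ z, 0 ≤ e' z) (hle : ∀ a z, P a → q a z → e a ≤ e' z)
    (hk : ∀ T : Finset V, (∀ a ∈ T, P a) →
      ∃ S : Finset V, T.card ≤ S.card ∧ ∀ z ∈ S, ∃ a ∈ T, q a z) :
    ∑ a, e a ≤ ∑ z, e' z := by
  classical
  let t : {a // P a} → Finset V := fun a => univ.filter fun z => q a.1 z
  have h1 : ∀ S : Finset {a // P a}, S.card ≤ (S.biUnion t).card := by
    intro S
    obtain ⟨S', h2, h3⟩ := hk (S.map (Function.Embedding.subtype _)) (by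
      intro z hz
      rw [Finset.mem_map] at hz
      obtain ⟨z', _, rfl⟩ := hz
      exact z'.2)
    rw [Finset.card_map] at h2
    refine h2.trans (Finset.card_le_card ?_)
    intro v hv
    obtain ⟨z, hz, hvz⟩ := h3 v hv
    rw [Finset.mem_map] at hz
    obtain ⟨z', hz', rfl⟩ := hz
    rw [Finset.mem_biUnion]
    exact ⟨z', hz', Finset.mem_filter.2 ⟨Finset.mem_univ _, hvz⟩⟩
  obtain ⟨f, hf1, hf2⟩ := (Finset.all_card_le_biUnion_card_iff_exists_injective t).1 h1
  have hf3 : ∀ a, q a.1 (f a) := fun a => (Finset.mem_filter.1 (hf2 a)).2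
  calc ∑ a, e a = ∑ a ∈ univ.filter P, e a := by
        rw [Finset.sum_filter]
        refine Finset.sum_congr rfl fun a _ => ?_
        by_cases h : P a
        · rw [if_pos h]
        · rw [if_neg h, he a h]
    _ = ∑ a : {a // P a}, e a.1 := by
        rw [Finset.sum_subtype (p := P) (univ.filter P) (by simp)]
    _ ≤ ∑ a : {a // P a}, e' (f a) := Finset.sum_le_sum fun a _ => hle a.1 (f a) a.2 (hf3 a)
    _ = ∑ z ∈ univ.image f, e' z := by
        rw [Finset.sum_image]
        intro a _ b _ h
        exact hf1 h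
    _ ≤ ∑ z, e' z := Finset.sum_le_sum_of_subset_of_nonneg (Finset.subset_univ _)
        fun z _ _ => he' z

/-- The main lemma. -/
theorem main_lemma {c : Finset V → ℤ} (hc : ∀ A B, c (A ∪ B) + c (A ∩ B) ≤ c A + c B)
    {r : V → V → Prop} (hrefl : ∀ a, r a a) {L U : V → Finset V} (hLU : ∀ a, L a ⊆ U a)
    (hr : ∀ a R, L a ⊆ R → R ⊆ U a → c (L a) ≤ c R)
    (hk : ∀ x (T : Finset V), (∀ a ∈ T, x ∈ U a ∧ x ∉ L a) →
      ∃ S : Finset V, T.card ≤ S.card ∧ ∀ z ∈ S, x ∈ ero r U z ∧ ∃ a ∈ T, r a z) :
    ∑ a, (c (U a) - c (L a)) ≤ ∑ z, (c (ero r U z) - c (ero r L z)) := by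
  classical
  have heroLU : ∀ z, ero r L z ⊆ ero r U z := fun z x hx =>
    mem_ero.2 fun a ha => hLU a (mem_ero.1 hx a ha)
  have heL : ∀ a z, r a z → ero r L z ⊆ L a := fun a z h x hx => mem_ero.1 hx a h
  have heU : ∀ a z, r a z → ero r U z ⊆ U a := fun a z h x hx => mem_ero.1 hx a h
  -- the functions F and F'
  set F : V → Finset V → ℤ := fun a X => mn c (L a ∪ (X ∩ U a)) (U a) with hF
  set F' : V → Finset V → ℤ := fun z X => mn c (ero r L z ∪ (X ∩ ero r U z)) (ero r U z) with hF'
  have hsub : ∀ a X, L a ∪ (X ∩ U a) ⊆ U a := fun a X =>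
    Finset.union_subset (hLU a) Finset.inter_subset_right
  have hsub' : ∀ z X, ero r L z ∪ (X ∩ ero r U z) ⊆ ero r U z := fun a X =>
    Finset.union_subset (heroLU a) Finset.inter_subset_right
  -- inherited optimality
  have hinh : ∀ z R, ero r L z ⊆ R → R ⊆ ero r U z → c (ero r L z) ≤ c R := by
    intro z R h1 h2
    have key : ∀ S : Finset V, (∀ a ∈ S, r a z) → c (R ∩ univ.filter fun x => ∀ a ∈ S, x ∈ L a)
        ≤ c R := by
      intro S
      induction S using Finset.induction_on with
      | empty => intro _; simp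
      | insert a S ha ih =>
        intro hS
        have ih' := ih fun b hb => hS b (Finset.mem_insert_of_mem hb)
        set R1 := R ∩ univ.filter fun x => ∀ a ∈ S, x ∈ L a with hR1
        have haz : r a z := hS a (Finset.mem_insert_self _ _)
        have e1 : R ∩ (univ.filter fun x => ∀ b ∈ insert a S, x ∈ L b) = R1 ∩ L a := by
          ext x
          simp only [hR1, Finset.mem_inter, Finset.mem_filter, Finset.mem_univ, true_and,
            Finset.mem_insert, forall_eq_or_imp]
          tauto
        rw [e1]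
        have h3 : c (L a) ≤ c (R1 ∪ L a) := by
          refine hr a _ Finset.subset_union_right (Finset.union_subset ?_ (hLU a))
          exact (Finset.inter_subset_left.trans h2).trans (heU a z haz)
        have h4 := hc R1 (L a)
        linarith
    have h3 := key (univ.filter fun a => r a z) (fun a ha => (Finset.mem_filter.1 ha).2)
    have e1 : (R ∩ univ.filter fun x => ∀ a ∈ univ.filter (fun a => r a z), x ∈ L a)
        = ero r L z := by
      ext x
      simp only [Finset.mem_inter, Finset.mem_filter, Finset.mem_univ, true_and, mem_ero]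
      constructor
      · rintro ⟨-, h⟩
        exact h
      · intro h
        exact ⟨h1 (mem_ero.2 h), h⟩
    rwa [e1] at h3
  -- the step
  have step : ∀ (x : V) (X : Finset V), x ∉ X →
      ∑ a, (F a (insert x X) - F a X) ≤ ∑ z, (F' z (insert x X) - F' z X) := by
    intro x X _
    refine hall_sum (P := fun a => x ∈ U a ∧ x ∉ L a) (q := fun a z => x ∈ ero r U z ∧ r a z)
      _ _ ?_ ?_ ?_ ?_
    · intro a ha
      have : L a ∪ (insert x X ∩ U a) = L a ∪ (X ∩ U a) := by
        ext y
        simp only [Finset.mem_union, Finset.mem_inter, Finset.mem_insert]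
        constructor
        · rintro (h | ⟨rfl | h, h'⟩)
          · exact Or.inl h
          · by_contra hcon
            exact ha ⟨h', fun h3 => hcon (Or.inl h3)⟩
          · exact Or.inr ⟨h, h'⟩
        · rintro (h | ⟨h, h'⟩)
          · exact Or.inl h
          · exact Or.inr ⟨Or.inr h, h'⟩
      simp only [hF, this, sub_self]
    · intro z
      obtain ⟨R, h1, h2, h3⟩ := exists_mn c (hsub' z (insert x X))
      have h4 : F' z X ≤ c R := by
        refine mn_le ?_ h2
        refine (Finset.union_subset_union_right ?_).trans h1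
        exact Finset.inter_subset_inter_right (Finset.subset_insert _ _)
      have h5 : c R = F' z (insert x X) := h3
      show 0 ≤ F' z (insert x X) - F' z X
      linarith
    · rintro a z - ⟨hxz, haz⟩
      obtain ⟨R, h1, h2, h3⟩ := exists_mn c (hsub' z (insert x X))
      obtain ⟨R', h1', h2', h3'⟩ := exists_mn c (hsub a X)
      have hxR : x ∈ R := h1 (Finset.mem_union_right _
        (Finset.mem_inter.2 ⟨Finset.mem_insert_self _ _, hxz⟩))
      have h4 : F a (insert x X) ≤ c (R ∪ R') := by
        refine mn_le ?_ ?_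
        · intro y hy
          rcases Finset.mem_union.1 hy with hy | hy
          · exact Finset.mem_union_right _ (h1' (Finset.mem_union_left _ hy))
          · obtain ⟨hy1, hy2⟩ := Finset.mem_inter.1 hy
            rcases Finset.mem_insert.1 hy1 with rfl | hy1
            · exact Finset.mem_union_left _ hxR
            · exact Finset.mem_union_right _ (h1' (Finset.mem_union_right _
                (Finset.mem_inter.2 ⟨hy1, hy2⟩)))
        · exact Finset.union_subset (h2.trans (heU a z haz)) h2'
      have h5 : F' z X ≤ c (R ∩ R') := by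
        refine mn_le ?_ ?_
        · intro y hy
          rcases Finset.mem_union.1 hy with hy | hy
          · exact Finset.mem_inter.2 ⟨h1 (Finset.mem_union_left _ hy),
              h1' (Finset.mem_union_left _ (heL a z haz hy))⟩
          · obtain ⟨hy1, hy2⟩ := Finset.mem_inter.1 hy
            exact Finset.mem_inter.2 ⟨h1 (Finset.mem_union_right _
              (Finset.mem_inter.2 ⟨Finset.mem_insert_of_mem hy1, hy2⟩)),
              h1' (Finset.mem_union_right _ (Finset.mem_inter.2 ⟨hy1, heU a z haz hy2⟩))⟩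
        · exact Finset.inter_subset_left.trans h2
      have h6 := hc R R'
      have h7 : c R = F' z (insert x X) := h3
      have h8 : c R' = F a X := h3'
      show F a (insert x X) - F a X ≤ F' z (insert x X) - F' z X
      linarith
    · intro T hT
      obtain ⟨S, h1, h2⟩ := hk x T hT
      exact ⟨S, h1, fun z hz => by
        obtain ⟨h3, a, ha, haz⟩ := h2 z hz
        exact ⟨a, ha, h3, haz⟩⟩
  have total : ∀ X : Finset V, ∑ a, (F a X - F a ∅) ≤ ∑ z, (F' z X - F' z ∅) := by
    intro X
    induction X using Finset.induction_on with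
    | empty => simp
    | insert x X hx ih =>
      have h1 := step x X hx
      simp only [Finset.sum_sub_distrib] at h1 ih ⊢
      linarith
  have h1 := total univ
  have e1 : ∀ a, F a univ = c (U a) := by
    intro a
    obtain ⟨R, h1, h2, h3⟩ := exists_mn c (hsub a univ)
    have : R = U a := Finset.Subset.antisymm h2 (by
      refine Finset.Subset.trans ?_ h1
      intro y hy
      exact Finset.mem_union_right _ (Finset.mem_inter.2 ⟨Finset.mem_univ _, hy⟩))
    rw [this] at h3
    exact h3.symm
  have e1' : ∀ z, F' z univ = c (ero r U z) := by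
    intro z
    obtain ⟨R, h1, h2, h3⟩ := exists_mn c (hsub' z univ)
    have : R = ero r U z := Finset.Subset.antisymm h2 (by
      refine Finset.Subset.trans ?_ h1
      intro y hy
      exact Finset.mem_union_right _ (Finset.mem_inter.2 ⟨Finset.mem_univ _, hy⟩))
    rw [this] at h3
    exact h3.symm
  have e2 : ∀ a, F a ∅ ≤ c (L a) := by
    intro a
    refine mn_le ?_ (hLU a)
    simp
  have e2' : ∀ z, c (ero r L z) ≤ F' z ∅ := by
    intro z
    obtain ⟨R, h1, h2, h3⟩ := exists_mn c (hsub' z ∅)
    have h4 : c R = F' z ∅ := h3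
    rw [← h4]
    exact hinh z R (Finset.Subset.trans Finset.subset_union_left h1) h2
  simp only [Finset.sum_sub_distrib, e1, e1'] at h1 ⊢
  have h2 : ∑ a, F a ∅ ≤ ∑ a, c (L a) := Finset.sum_le_sum fun a _ => e2 a
  have h3 : ∑ z, c (ero r L z) ≤ ∑ z, F' z ∅ := Finset.sum_le_sum fun z _ => e2' z
  linarith

end Vale.Agent.P038.H484
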