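import Vale.Agent.P038.H484.Lemma
import Vale.Agent.P038.Defs

/-!
# Orthogonal pairs of set families in an oriented graph
-/

namespace Vale.Agent.P038.H484

open Finset

variable {V : Type*} [Fintype V] [DecidableEq V]

/-- `a` is in the closed in-neighbourhood of `z`. -/
def rr (D : OGraph V) (a z : V) : Prop := a = z ∨ D.arc a z

theorem rr_refl (D : OGraph V) (a : V) : rr D a a := Or.inl rfl

open Classical in
/-- The closed out-neighbourhood of a set. -/
noncomputable def cl (D : OGraph V) (S : Finset V) : Finset V :=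
  univ.filter fun z => ∃ a ∈ S, rr D a z

theorem mem_cl {D : OGraph V} {S : Finset V} {z : V} : z ∈ cl D S ↔ ∃ a ∈ S, rr D a z := by
  classical
  simp [cl]

theorem subset_cl (D : OGraph V) (S : Finset V) : S ⊆ cl D S := fun x hx =>
  mem_cl.2 ⟨x, hx, rr_refl D x⟩

/-- `|N[S]| - |S|`. -/
noncomputable def cc (D : OGraph V) (S : Finset V) : ℤ := ((cl D S).card : ℤ) - S.card

theorem cl_union (D : OGraph V) (A B : Finset V) : cl D (A ∪ B) = cl D A ∪ cl D B := by
  ext z
  simp only [mem_cl, Finset.mem_union]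
  constructor
  · rintro ⟨a, h | h, h'⟩
    · exact Or.inl ⟨a, h, h'⟩
    · exact Or.inr ⟨a, h, h'⟩
  · rintro (⟨a, h, h'⟩ | ⟨a, h, h'⟩)
    · exact ⟨a, Or.inl h, h'⟩
    · exact ⟨a, Or.inr h, h'⟩

theorem cc_sub (D : OGraph V) (A B : Finset V) :
    cc D (A ∪ B) + cc D (A ∩ B) ≤ cc D A + cc D B := by
  have h1 : (cl D (A ∩ B)).card ≤ (cl D A ∩ cl D B).card := by
    refine Finset.card_le_card fun z hz => ?_
    obtain ⟨a, ha, haz⟩ := mem_cl.1 hz
    obtain ⟨h1, h2⟩ := Finset.mem_inter.1 ha
    exact Finset.mem_inter.2 ⟨mem_cl.2 ⟨a, h1, haz⟩, mem_cl.2 ⟨a, h2, haz⟩⟩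
  have h2 := Finset.card_union_add_card_inter (cl D A) (cl D B)
  have h3 := Finset.card_union_add_card_inter A B
  unfold cc
  rw [cl_union]
  have h1' : ((cl D (A ∩ B)).card : ℤ) ≤ ((cl D A ∩ cl D B).card : ℤ) := by exact_mod_cast h1
  have h2' : ((cl D A ∪ cl D B).card : ℤ) + ((cl D A ∩ cl D B).card : ℤ)
      = (cl D A).card + (cl D B).card := by exact_mod_cast h2
  have h3' : ((A ∪ B).card : ℤ) + ((A ∩ B).card : ℤ) = A.card + B.card := by exact_mod_cast h3
  linarith

/-- An orthogonal pair. -/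
structure OP (D : OGraph V) (B C : V → Finset V) : Prop where
  /-- `B` contains the arcs. -/
  b : ∀ a z, rr D a z → z ∈ B a
  /-- `C` contains the arcs. -/
  c : ∀ a z, rr D a z → z ∈ C a
  /-- Orthogonality. -/
  o : ∀ a x, x ∈ B a → a ∈ C x → a = x

/-- The cost of a pair. -/
noncomputable def cost (D : OGraph V) (B C : V → Finset V) : ℤ :=
  ∑ a, cc D (B a) + ∑ a, cc D (C a)

theorem exists_opt (D : OGraph V) :
    ∃ B C, OP D B C ∧ ∀ B' C', OP D B' C' → cost D B C ≤ cost D B' C' := by
  classical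
  have hne : (univ.filter fun p : (V → Finset V) × (V → Finset V) => OP D p.1 p.2).Nonempty := by
    refine ⟨(fun a => cl D {a}, fun a => cl D {a}), Finset.mem_filter.2 ⟨Finset.mem_univ _, ?_⟩⟩
    refine ⟨?_, ?_, ?_⟩
    · intro a z h
      exact mem_cl.2 ⟨a, Finset.mem_singleton_self _, h⟩
    · intro a z h
      exact mem_cl.2 ⟨a, Finset.mem_singleton_self _, h⟩
    · intro a x h1 h2
      obtain ⟨a', h3, h4⟩ := mem_cl.1 h1
      obtain ⟨x', h5, h6⟩ := mem_cl.1 h2
      rw [Finset.mem_singleton] at h3 h5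
      subst h3 h5
      rcases h4 with h4 | h4
      · exact h4
      · rcases h6 with h6 | h6
        · exact h6.symm
        · exact absurd h6 (D.asymm _ _ h4)
  obtain ⟨p, hp, hmin⟩ := Finset.exists_min_image _ (fun p => cost D p.1 p.2) hne
  exact ⟨p.1, p.2, (Finset.mem_filter.1 hp).2, fun B' C' h =>
    hmin (B', C') (Finset.mem_filter.2 ⟨Finset.mem_univ _, h⟩)⟩

/-- The erosion followed by the closed out-neighbourhood is again an orthogonal pair. -/
theorem OP.next {D : OGraph V} {P Q : V → Finset V} (h : OP D P Q) :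
    OP D (fun z => cl D (ero (rr D) P z)) (fun z => cl D (ero (rr D) Q z)) := by
  refine ⟨?_, ?_, ?_⟩
  · intro a z haz
    exact mem_cl.2 ⟨a, mem_ero.2 fun a' h' => h.b a' a h', haz⟩
  · intro a z haz
    exact mem_cl.2 ⟨a, mem_ero.2 fun a' h' => h.c a' a h', haz⟩
  · intro a x h1 h2
    obtain ⟨v, hv, hvx⟩ := mem_cl.1 h1
    obtain ⟨v', hv', hva⟩ := mem_cl.1 h2
    have e : v' = v := h.o v' v (mem_ero.1 hv v' hva) (mem_ero.1 hv' v hvx)
    subst e
    have e1 : a = v' := h.o a v' (mem_ero.1 hv a (rr_refl D a)) (h.c v' a hva)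
    have e2 : v' = x := h.o v' x (h.b v' x hvx) (mem_ero.1 hv' x (rr_refl D x))
    exact e1.trans e2

/-- `∑ (1 + [a = x])`. -/
def KK (V : Type*) [Fintype V] [DecidableEq V] : ℤ :=
  ∑ a : V, ∑ x : V, (1 + if a = x then 1 else 0)

theorem sum_card (P : V → Finset V) :
    ∑ a, ((P a).card : ℤ) = ∑ a, ∑ x, if x ∈ P a then (1 : ℤ) else 0 := by
  refine Finset.sum_congr rfl fun a _ => ?_
  simp

theorem count_le {P Q : V → Finset V} (h : ∀ a x, x ∈ P a → a ∈ Q x → a = x) :
    (∑ a, ((P a).card : ℤ)) + ∑ a, ((Q a).card : ℤ) ≤ KK V := by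
  rw [sum_card P, sum_card Q, Finset.sum_comm (f := fun a x => if x ∈ Q a then (1 : ℤ) else 0),
    ← Finset.sum_add_distrib]
  refine Finset.sum_le_sum fun a _ => ?_
  rw [← Finset.sum_add_distrib]
  refine Finset.sum_le_sum fun x _ => ?_
  by_cases h1 : x ∈ P a
  · by_cases h2 : a ∈ Q x
    · rw [if_pos h1, if_pos h2, if_pos (h a x h1 h2)]
    · rw [if_pos h1, if_neg h2]
      split_ifs <;> norm_num
  · rw [if_neg h1]
    split_ifs <;> norm_num

theorem count_ge {P Q : V → Finset V} (h : ∀ a x, x ∈ P a ∨ a ∈ Q x)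
    (hP : ∀ a, a ∈ P a) (hQ : ∀ a, a ∈ Q a) :
    KK V ≤ (∑ a, ((P a).card : ℤ)) + ∑ a, ((Q a).card : ℤ) := by
  rw [sum_card P, sum_card Q, Finset.sum_comm (f := fun a x => if x ∈ Q a then (1 : ℤ) else 0),
    ← Finset.sum_add_distrib]
  refine Finset.sum_le_sum fun a _ => ?_
  rw [← Finset.sum_add_distrib]
  refine Finset.sum_le_sum fun x _ => ?_
  by_cases h0 : a = x
  · subst h0
    rw [if_pos rfl, if_pos (hP a), if_pos (hQ a)]
  · rw [if_neg h0]
    rcases h a x with h1 | h1
    · rw [if_pos h1]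
      split_ifs <;> norm_num
    · rw [if_pos h1]
      split_ifs <;> norm_num

open Classical in
/-- The complementary family. -/
noncomputable def cp (C : V → Finset V) (a : V) : Finset V := univ.filter fun x => a ∉ C x ∨ a = x

theorem mem_cp {C : V → Finset V} {a x : V} : x ∈ cp C a ↔ a ∉ C x ∨ a = x := by
  classical
  simp [cp]

theorem cost_cp {D : OGraph V} {B C : V → Finset V} (h : OP D B C) :
    ∑ z, cc D (ero (rr D) (cp C) z) + ∑ z, cc D (ero (rr D) C z)
      ≤ ∑ a, cc D (cp C a) + ∑ a, cc D (C a) := by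
  have hBU : ∀ a, B a ⊆ cp C a := fun a x hx => mem_cp.2 (by
    by_cases h1 : a ∈ C x
    · exact Or.inr (h.o a x hx h1)
    · exact Or.inl h1)
  have hU : OP D (cp C) C := ⟨fun a z haz => hBU a (h.b a z haz), h.c, fun a x h1 h2 => by
    rcases mem_cp.1 h1 with h3 | h3
    · exact absurd h2 h3
    · exact h3⟩
  have e1 := count_le hU.next.o
  have e2 : KK V ≤ (∑ a, ((cl D (cp C a)).card : ℤ)) + ∑ a, ((ero (rr D) C a).card : ℤ) := by
    refine count_ge ?_ ?_ ?_
    · intro a x
      by_cases h1 : a ∈ ero (rr D) C x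
      · exact Or.inr h1
      · left
        rw [mem_ero] at h1
        push Not at h1
        obtain ⟨v, hv, hva⟩ := h1
        exact mem_cl.2 ⟨v, mem_cp.2 (Or.inl hva), hv⟩
    · intro a
      exact subset_cl D _ (mem_cp.2 (Or.inr rfl))
    · intro a
      exact mem_ero.2 fun a' h' => h.c a' a h'
  have e3 : KK V ≤ (∑ a, ((ero (rr D) (cp C) a).card : ℤ)) + ∑ a, ((cl D (C a)).card : ℤ) := by
    refine count_ge ?_ ?_ ?_
    · intro z x
      by_cases h1 : z ∈ cl D (C x)
      · exact Or.inr h1
      · left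
        refine mem_ero.2 fun a ha => mem_cp.2 (Or.inl fun h2 => h1 (mem_cl.2 ⟨a, h2, ha⟩))
    · intro a
      exact mem_ero.2 fun a' h' => hU.b a' a h'
    · intro a
      exact subset_cl D _ (h.c a a (rr_refl D a))
  have e4 := count_le hU.o
  unfold cc
  simp only [Finset.sum_sub_distrib]
  linarith

/-- The optimal pair is not improved by the erosion. -/
theorem cost_ero {D : OGraph V} {B C : V → Finset V} (h : OP D B C)
    (hmin : ∀ B' C', OP D B' C' → cost D B C ≤ cost D B' C') :
    ∑ z, cc D (ero (rr D) B z) + ∑ z, cc D (ero (rr D) C z) ≤ cost D B C := by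
  have hBU : ∀ a, B a ⊆ cp C a := fun a x hx => mem_cp.2 (by
    by_cases h1 : a ∈ C x
    · exact Or.inr (h.o a x hx h1)
    · exact Or.inl h1)
  have hr : ∀ a R, B a ⊆ R → R ⊆ cp C a → cc D (B a) ≤ cc D R := by
    intro a R h1 h2
    have hop : OP D (Function.update B a R) C := by
      refine ⟨?_, h.c, ?_⟩
      · intro b z hbz
        by_cases hb : b = a
        · subst hb
          rw [Function.update_self]
          exact h1 (h.b b z hbz)
        · rw [Function.update_of_ne hb]
          exact h.b b z hbz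
      · intro b x h3 h4
        by_cases hb : b = a
        · subst hb
          rw [Function.update_self] at h3
          rcases mem_cp.1 (h2 h3) with h5 | h5
          · exact absurd h4 h5
          · exact h5
        · rw [Function.update_of_ne hb] at h3
          exact h.o b x h3 h4
    have h3 := hmin _ _ hop
    unfold cost at h3
    have h4 : ∑ b, cc D (Function.update B a R b) = cc D R + ∑ b ∈ univ.erase a, cc D (B b) := by
      rw [← Finset.add_sum_erase _ _ (Finset.mem_univ a), Function.update_self]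
      congr 1
      refine Finset.sum_congr rfl fun b hb => ?_
      rw [Function.update_of_ne (Finset.ne_of_mem_erase hb)]
    have h5 : ∑ b, cc D (B b) = cc D (B a) + ∑ b ∈ univ.erase a, cc D (B b) :=
      (Finset.add_sum_erase _ _ (Finset.mem_univ a)).symm
    linarith
  have hk : ∀ x (T : Finset V), (∀ a ∈ T, x ∈ cp C a ∧ x ∉ B a) →
      ∃ S : Finset V, T.card ≤ S.card ∧ ∀ z ∈ S, x ∈ ero (rr D) (cp C) z ∧
        ∃ a ∈ T, rr D a z := by
    intro x T hT
    have hTC : ∀ a ∈ T, a ∉ C x := by
      intro a ha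
      obtain ⟨h1, h2⟩ := hT a ha
      rcases mem_cp.1 h1 with h3 | h3
      · exact h3
      · subst h3
        exact absurd (h.b a a (rr_refl D a)) h2
    have hop : OP D B (Function.update C x (C x ∪ T)) := by
      refine ⟨h.b, ?_, ?_⟩
      · intro b z hbz
        by_cases hb : b = x
        · subst hb
          rw [Function.update_self]
          exact Finset.mem_union_left _ (h.c b z hbz)
        · rw [Function.update_of_ne hb]
          exact h.c b z hbz
      · intro a b h3 h4
        by_cases hb : b = x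
        · subst hb
          rw [Function.update_self] at h4
          rcases Finset.mem_union.1 h4 with h5 | h5
          · exact h.o a b h3 h5
          · exact absurd h3 (hT a h5).2
        · rw [Function.update_of_ne hb] at h4
          exact h.o a b h3 h4
    have h3 := hmin _ _ hop
    unfold cost at h3
    have h4 : ∑ b, cc D (Function.update C x (C x ∪ T) b)
        = cc D (C x ∪ T) + ∑ b ∈ univ.erase x, cc D (C b) := by
      rw [← Finset.add_sum_erase _ _ (Finset.mem_univ x), Function.update_self]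
      congr 1
      refine Finset.sum_congr rfl fun b hb => ?_
      rw [Function.update_of_ne (Finset.ne_of_mem_erase hb)]
    have h5 : ∑ b, cc D (C b) = cc D (C x) + ∑ b ∈ univ.erase x, cc D (C b) :=
      (Finset.add_sum_erase _ _ (Finset.mem_univ x)).symm
    have h6 : cc D (C x) ≤ cc D (C x ∪ T) := by linarith
    refine ⟨cl D (C x ∪ T) \ cl D (C x), ?_, ?_⟩
    · have h7 : cl D (C x) ⊆ cl D (C x ∪ T) := by
        rw [cl_union]
        exact Finset.subset_union_left
      have h8 := Finset.card_sdiff_add_card_eq_card h7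
      have h9 : (C x ∪ T).card = (C x).card + T.card :=
        Finset.card_union_of_disjoint (Finset.disjoint_right.2 hTC)
      unfold cc at h6
      rw [h9] at h6
      push_cast at h6
      have h8' : ((cl D (C x ∪ T) \ cl D (C x)).card : ℤ) + (cl D (C x)).card
          = (cl D (C x ∪ T)).card := by exact_mod_cast h8
      have : (T.card : ℤ) ≤ ((cl D (C x ∪ T) \ cl D (C x)).card : ℤ) := by linarith
      exact_mod_cast this
    · intro z hz
      obtain ⟨hz1, hz2⟩ := Finset.mem_sdiff.1 hz
      refine ⟨mem_ero.2 fun a ha => mem_cp.2 (Or.inl fun h7 => hz2 (mem_cl.2 ⟨a, h7, ha⟩)), ?_⟩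
      obtain ⟨a, ha, haz⟩ := mem_cl.1 hz1
      rcases Finset.mem_union.1 ha with h7 | h7
      · exact absurd (mem_cl.2 ⟨a, h7, haz⟩) hz2
      · exact ⟨a, h7, haz⟩
  have h1 := main_lemma (cc_sub D) (rr_refl D) hBU hr hk
  have h2 := cost_cp h
  simp only [Finset.sum_sub_distrib] at h1
  unfold cost
  linarith

end Vale.Agent.P038.H484
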